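import Mathlib.RingTheory.Nakayama
import Mathlib.RingTheory.Nullstellensatz
import Mathlib.RingTheory.MvPolynomial.Homogeneous
import Mathlib.RingTheory.MvPolynomial.Ideal
import Mathlib.RingTheory.Finiteness.Ideal
import Mathlib.Analysis.Complex.Polynomial.Basic
import Vale.Agent.P300LC.Pol

/-!
# P280G40: elimination
-/

set_option linter.all false

open MvPolynomial Vale.Agent.P300LC

noncomputable section

namespace Vale.Agent.P280G40

/-- the main theorem of elimination theory, with denominators -/
theorem elim {R τ : Type} [CommRing R] [Fintype τ] (φ : R →+* ℂ) (hφ : Function.Surjective φ)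
    (J : Set (MvPolynomial τ R)) (hJ : ∀ G ∈ J, ∃ d, G.IsHomogeneous d)
    (h : ∀ t : τ → ℂ, (∀ G ∈ J, eval₂ φ t G = 0) → t = 0) :
    ∃ (s : ℕ) (Q : R), φ Q = 1 ∧ ∀ l, C Q * X l ^ s ∈ Ideal.span J := by
  classical
  letI := MvPolynomial.gradedAlgebra (σ := τ) (R := R)
  have hom := Ideal.homogeneous_span (homogeneousSubmodule τ R) J fun G hG => hJ G hG
  obtain ⟨s, hs⟩ := Ideal.exists_pow_le_of_le_radical_of_fg
    (J := (Ideal.span J).map (map φ)) (I := idealOfVars τ ℂ) (by
      rw [← vanishingIdeal_zeroLocus_eq_radical (K := ℂ), Ideal.span_le]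
      rintro _ ⟨l, rfl⟩ t ht
      rw [aeval_X, h t fun G hG => ?_, Pi.zero_apply]
      have := ht _ (Ideal.mem_map_of_mem (map φ) (Ideal.subset_span hG))
      rwa [aeval_eq_eval, eval_map] at this) (idealOfVars_fg τ ℂ)
  obtain ⟨Q, q1, q2⟩ := Submodule.exists_sub_one_mem_and_smul_le_of_fg_of_le_sup
    (I := RingHom.ker φ) (N := (Ideal.span J).restrictScalars R)
    (homogeneousSubmodule_fg τ R s) le_rfl (by
      intro p hp
      obtain ⟨G, g1, g2⟩ := (Ideal.mem_map_iff_of_surjective _ (map_surjective φ hφ)).1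
        (hs ((mem_pow_idealOfVars_iff' s (map φ p)).2 fun x hx => by
          rw [coeff_map, IsHomogeneous.coeff_eq_zero hp hx.ne, map_zero]))
      have e : p = homogeneousComponent s G + homogeneousComponent s (p - G) := by
        rw [← map_add, add_sub_cancel, homogeneousComponent_eq_self hp]
      rw [e]
      refine Submodule.add_mem_sup (homogeneousComponent_mem_of_mem hom g1 s) ?_
      rw [homogeneousComponent_apply]
      refine Submodule.sum_mem _ fun d hd => ?_
      rw [← mul_one (coeff d _), ← smul_eq_mul, ← smul_monomial]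
      refine Submodule.smul_mem_smul ?_ (isHomogeneous_monomial _ (Finset.mem_filter.1 hd).2)
      rw [RingHom.mem_ker, ← coeff_map, map_sub, g2, sub_self, coeff_zero])
  refine ⟨s, Q, by simpa [sub_eq_zero] using q1, fun l => ?_⟩
  rw [← smul_eq_C_mul]
  exact q2 (Submodule.smul_mem_pointwise_smul _ Q _ (isHomogeneous_X_pow l s))

variable {N M : ℕ}

theorem hc_zero {P : Pn N} {y : Vn N} (h : ∀ c : ℂ, c ≠ 0 → eval (c • y) P = 0) (k : ℕ) :
    eval y (homogeneousComponent k P) = 0 := by
  by_cases hk : k < P.totalDegree + 1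
  · have := Polynomial.eq_zero_of_infinite_isRoot (∑ j ∈ Finset.range (P.totalDegree + 1),
      Polynomial.monomial j (ev (homogeneousComponent j P) y))
      (((Set.finite_singleton (0 : ℂ)).infinite_compl).mono fun s hs => by
        have := h s hs
        rw [← P.sum_homogeneousComponent, map_sum] at this
        rw [Set.mem_setOf, Polynomial.IsRoot, Polynomial.eval_finset_sum, ← this]
        exact Finset.sum_congr rfl fun j _ => (Polynomial.eval_monomial.trans (mul_comm _ _)).trans
          (hom_ev (P.homogeneousComponent_isHomogeneous j) s y).symm)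
    simpa [Polynomial.coeff_monomial, hk, ev] using congrArg (Polynomial.coeff · k) this
  · rw [homogeneousComponent_eq_zero _ _ (by omega), map_zero]

/-- the part of degree `d` in the first group of variables -/
def cmp (d : ℕ) (A : MvPolynomial (Fin M) (Pn N)) (y : Vn N) (t : Vn M) : ℂ :=
  ∑ m ∈ A.support, ev (homogeneousComponent d (A.coeff m)) y * ∏ j, t j ^ m j

theorem cmp_smul (d : ℕ) (A : MvPolynomial (Fin M) (Pn N)) (c : ℂ) (y : Vn N) (t : Vn M) :
    cmp d A (c • y) t = c ^ d * cmp d A y t := by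
  simp only [cmp, Finset.mul_sum, hom_ev (homogeneousComponent_isHomogeneous d _), mul_assoc]

theorem cmp_id {A : MvPolynomial (Fin M) (Pn N)} {Q : Pn N} {y : Vn N} {t : Vn M} {b : ℂ}
    (h : ∀ c : ℂ, c ≠ 0 → eval (c • y) Q = eval₂ (eval (c • y)) t A * b) (d : ℕ) :
    ev (homogeneousComponent d Q) y = cmp d A y t * b := by
  have := hc_zero (P := Q - ∑ m ∈ A.support, C ((∏ j, t j ^ m j) * b) * A.coeff m) (y := y)
    (fun c hc => by
      rw [map_sub, h c hc, eval₂_eq', map_sum, Finset.sum_mul, sub_eq_zero]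
      exact Finset.sum_congr rfl fun m _ => by rw [map_mul, eval_C]; ring) d
  rw [map_sub, map_sub, map_sum, map_sum, sub_eq_zero] at this
  rw [ev, this, cmp, Finset.sum_mul]
  exact Finset.sum_congr rfl fun m _ => by
    rw [homogeneousComponent_C_mul, map_mul, eval_C, ev]; ring

theorem cmp_an {E : Type} [NormedAddCommGroup E] [NormedSpace ℂ E] (d : ℕ)
    (A : MvPolynomial (Fin M) (Pn N)) {y : E → Vn N} {t : E → Vn M} {z : E}
    (hy : AnalyticAt ℂ y z) (ht : AnalyticAt ℂ t z) :
    AnalyticAt ℂ (fun z => cmp d A (y z) (t z)) z :=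
  Finset.analyticAt_fun_sum _ fun m _ => ((an_ev _ _).comp hy).mul
    (Finset.analyticAt_fun_prod _ fun j _ => (analyticAt_pi_iff.1 ht j).pow _)

end Vale.Agent.P280G40

end
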