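import Vale.Agent.P280A30.Rows
import Vale.Agent.P280G40.Morg

/-!
# P280G40: the row `MAP`
-/

set_option linter.all false

open scoped Manifold ContDiff Topology
open Vale.Agent.P272.K Vale.Agent.P300.Final Vale.Agent.P299G40
open Vale.Agent.P009.AV (aff)

noncomputable section

namespace Vale.Agent.P280A

variable {n M : ℕ} {X : Type} [TopologicalSpace X] [ChartedSpace (Cm n) X] {Ψ : X → PN M}

theorem HolP.isOpen (h : HolP n Ψ) (l : Fin (M + 1)) : IsOpen {x | (Ψ x).rep l ≠ 0} := by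
  refine isOpen_iff_mem_nhds.2 fun x hx => ?_
  obtain ⟨s, an, ev⟩ := h x
  obtain ⟨s0, e0⟩ := ev.self_of_nhds
  have he := at_chart (n := n) x
  have c := ((analyticAt_pi_iff.1 (an _ he) l).continuousAt.comp
    ((chartAt (Cm n) x).continuousAt he.2)).eventually_ne (y := 0) (by
      simpa only [Function.comp_apply, he.left_inv] using (aff_mk s0 l).1.1 (e0 ▸ hx))
  filter_upwards [c, ev, (chartAt (Cm n) x).open_source.mem_nhds he.2] with y y1 ⟨y0, y2⟩ y3
  rw [Function.comp_apply, (chartAt (Cm n) x).left_inv y3] at y1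
  exact y2 ▸ (aff_mk y0 l).1.2 y1

theorem HolP.an_aff (h : HolP n Ψ) (l : Fin (M + 1)) (x : X) (e : Chart n X)
    (hx : (Ψ x).rep l ≠ 0) (he : At e x) :
    AnalyticAt ℂ (fun z => aff l (Ψ (e.symm z))) (e x) := by
  obtain ⟨s, an, ev⟩ := h x
  obtain ⟨s0, e0⟩ := ev.self_of_nhds
  have d := analyticAt_pi_iff.1 (an e he)
  refine (analyticAt_pi_iff.2 fun j => (d j).div (d l) (by
    simpa only [he.left_inv] using (aff_mk s0 l).1.1 (e0 ▸ hx))).congr ?_
  filter_upwards [(e.tendsto_symm he.2).eventually ev] with z ⟨z0, hz⟩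
  rw [hz, (aff_mk z0 l).2]
  rfl

theorem map : MAP := by
  intro n N M X _ _ _ _ _ _ Φ Ψ inj hΦ hΨ
  have e : ∀ x, Ψ (Function.invFun Φ (Φ x)) = Ψ x := fun x =>
    congrArg Ψ (Function.leftInverse_invFun inj x)
  refine ⟨fun z => Ψ (Function.invFun Φ z), ?_, e⟩
  rintro _ ⟨x₀, rfl⟩
  obtain ⟨F, d, h1, h2, h3⟩ := P280G40.morg inj hΦ hΨ.isOpen
    (fun l x e hx he => (hΨ.an_aff l x e hx he).contDiffAt) x₀
  exact ⟨F, d, h1, h2, by rintro _ ⟨x, rfl⟩ h; exact (e x).trans (h3 x h)⟩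

end Vale.Agent.P280A

end
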